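import Vale.Agent.P181.H382.Defs
import Vale.Agent.P181.MD.H514.DefsD
import Vale.Agent.P181.DX.H556.Sec

/-!
# P181, LL: [L8], the union (helper510)

`b ≥ (1 + δ) a` and `D_2 ≥ a * polylog` suffice, from the two long rows (`TwoLongN`), the long third
row (`ThirdLongD`), the cells in the first `b` columns (`FatLog`), the small `w` (`UniY`) and the
large `b` (`PolyS`).
-/

set_option autoImplicit false

namespace Vale.Agent.P181.H382.H510

open Vale.Agent.P181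
open Vale.Agent.P181.T4 (ex)
open Vale.Agent.P181.H280 (plethMult)
open Vale.Agent.P181.PL (dn exlt exge exfin exanti dn_succ PolyS)
open Vale.Agent.P181.TL (dn2)

/-- Powers of the logarithm are smaller than `a`. -/
lemma ev (K : ℝ) (hK : 0 < K) (m p : ℕ) :
    ∃ A0 : ℕ, ∀ a : ℕ, A0 ≤ a → (K * (1 + Real.log a) ^ m) ^ p ≤ (a : ℝ) := by
  have h1 : (fun x : ℝ => Real.log x ^ (m * p)) =o[Filter.atTop] id :=
    Real.isLittleO_pow_log_id_atTop
  have h2 := h1.bound (show 0 < (K ^ p * 2 ^ (m * p))⁻¹ by positivity)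
  have h3 := tendsto_natCast_atTop_atTop (R := ℝ) |>.eventually h2
  obtain ⟨A0, hA0⟩ := Filter.eventually_atTop.1 (h3.and (Filter.eventually_ge_atTop 3))
  refine ⟨A0, fun a ha => ?_⟩
  obtain ⟨h4, h5⟩ := hA0 a ha
  have ha3 : (3 : ℝ) ≤ a := by exact_mod_cast h5
  have hlog : 1 ≤ Real.log a := by
    rw [Real.le_log_iff_exp_le (by linarith)]
    have := Real.exp_one_lt_d9
    linarith
  rw [Real.norm_of_nonneg (by positivity), id, Real.norm_of_nonneg (by positivity)] at h4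
  calc (K * (1 + Real.log a) ^ m) ^ p = K ^ p * (1 + Real.log a) ^ (m * p) := by
        rw [mul_pow, ← pow_mul]
    _ ≤ K ^ p * (2 * Real.log a) ^ (m * p) := by
        apply mul_le_mul_of_nonneg_left _ (by positivity)
        exact pow_le_pow_left₀ (by linarith) (by linarith) _
    _ = (K ^ p * 2 ^ (m * p)) * Real.log a ^ (m * p) := by rw [mul_pow, mul_assoc]
    _ ≤ (K ^ p * 2 ^ (m * p)) * ((K ^ p * 2 ^ (m * p))⁻¹ * a) :=
        mul_le_mul_of_nonneg_left h4 (by positivity)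
    _ = a := by rw [← mul_assoc, mul_inv_cancel₀ (by positivity), one_mul]

/-- The cells below row two are few if there are few cells in the first `b` columns. -/
lemma dn_mul_le {n : ℕ} {lam : Fin n → ℕ} (hlam : Antitone lam) (b : ℕ) :
    dn lam 2 * b ≤ (∑ i, min b (lam i)) * (b + ex lam 2) := by
  unfold dn
  rw [Finset.sum_mul, Finset.sum_mul]
  apply Finset.sum_le_sum
  intro i _
  split_ifs with h
  · have h1 : lam i ≤ ex lam 2 := by
      rw [← exfin lam i]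
      exact exanti hlam h
    rcases le_total (lam i) b with h2 | h2
    · rw [min_eq_right h2]
      exact Nat.mul_le_mul_left _ (by omega)
    · rw [min_eq_left h2, Nat.mul_comm]
      exact Nat.mul_le_mul_left _ (by omega)
  · rw [Nat.zero_mul]
    exact Nat.zero_le _

lemma dn_le_sum {n : ℕ} (lam : Fin n → ℕ) (j : ℕ) : dn lam j ≤ ∑ i, lam i := by
  unfold dn
  apply Finset.sum_le_sum
  intro i _
  split_ifs
  · exact le_rfl
  · exact Nat.zero_le _

lemma dn2_eq {k : ℕ} (lam : Fin (k + 2) → ℕ) : dn2 lam = dn lam 2 := by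
  unfold dn2 dn
  rw [Fin.sum_univ_succ, Fin.sum_univ_succ]
  simp

lemma dn_small {n : ℕ} (lam : Fin n → ℕ) (hn : n ≤ 2) : dn lam 2 = 0 := by
  unfold dn
  apply Finset.sum_eq_zero
  intro i _
  rw [if_neg]
  have := i.2
  omega

/-- The real estimate behind the long third row. -/
lemma third_num {a x b D S V P K X3 C3 : ℝ} (ha : 1 ≤ a) (hb : 0 < b) (hx0 : 0 ≤ x)
    (hx : x < a ^ (5 / 3 : ℝ)) (hC3 : 0 < C3) (hX3 : 0 < X3) (hbb : b < C3 * a * X3)
    (hS : S < V * b) (hV : 0 < V) (hP : 0 < P) (hD : D * b ≤ S * (b + x))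
    (hDa : a ^ 2 < P * D) (hK : P * V * (C3 * X3 + 1) ≤ K) (hKa : K ^ 3 ≤ a) : False := by
  have ha0 : 0 < a := by linarith
  obtain ⟨y, hy⟩ : ∃ y : ℝ, y = a ^ (1 / 3 : ℝ) := ⟨_, rfl⟩
  have hy0 : 0 < y := by
    rw [hy]
    positivity
  have hy3 : y ^ 3 = a := by
    rw [hy, ← Real.rpow_natCast, ← Real.rpow_mul ha0.le]
    norm_num
  have hy5 : y ^ 5 = a ^ (5 / 3 : ℝ) := by
    rw [hy, ← Real.rpow_natCast, ← Real.rpow_mul ha0.le]
    norm_num
  have hy1 : 1 ≤ y := by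
    rw [hy]
    exact Real.one_le_rpow ha (by norm_num)
  rw [← hy5] at hx
  have h1 : D < V * (b + x) := by
    have h2 : D * b < V * (b + x) * b := by
      calc D * b ≤ S * (b + x) := hD
        _ < V * b * (b + x) := mul_lt_mul_of_pos_right hS (by linarith)
        _ = V * (b + x) * b := by ring
    exact lt_of_mul_lt_mul_right h2 hb.le
  have h35 : y ^ 3 ≤ y ^ 5 := pow_le_pow_right₀ hy1 (by norm_num)
  have h3 : b + x ≤ (C3 * X3 + 1) * y ^ 5 := by
    have h4 : C3 * a * X3 ≤ C3 * X3 * y ^ 5 := by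
      rw [← hy3]
      calc C3 * y ^ 3 * X3 = C3 * X3 * y ^ 3 := by ring
        _ ≤ C3 * X3 * y ^ 5 := mul_le_mul_of_nonneg_left h35 (by positivity)
    linarith
  have h5 : y ^ 6 < K * y ^ 5 := by
    calc y ^ 6 = a ^ 2 := by rw [← hy3]; ring
      _ < P * D := hDa
      _ ≤ P * (V * (b + x)) := mul_le_mul_of_nonneg_left h1.le hP.le
      _ ≤ P * (V * ((C3 * X3 + 1) * y ^ 5)) :=
          mul_le_mul_of_nonneg_left (mul_le_mul_of_nonneg_left h3 hV.le) hP.le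
      _ = P * V * (C3 * X3 + 1) * y ^ 5 := by ring
      _ ≤ K * y ^ 5 := mul_le_mul_of_nonneg_right hK (by positivity)
  have h6 : y < K := by
    have h7 : y * y ^ 5 < K * y ^ 5 := by
      calc y * y ^ 5 = y ^ 6 := by ring
        _ < K * y ^ 5 := h5
    exact lt_of_mul_lt_mul_right h7 (by positivity)
  have h8 : y ^ 3 < K ^ 3 := pow_lt_pow_left₀ h6 hy0.le (by norm_num)
  linarith

lemma two_num {a b c e D w R : ℝ} (hw : b ^ 2 < c * w) (hwD : w = e + D)
    (h42 : 2 * c * D ≤ a ^ 2) (h2 : 2 * c * e ≤ R) (h3 : a ^ 2 ≤ b ^ 2) : a ^ 2 ≤ R := by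
  rw [hwD] at hw
  have h4 : c * (e + D) = c * e + c * D := by ring
  have h5 : 2 * c * e = 2 * (c * e) := by ring
  have h6 : 2 * c * D = 2 * (c * D) := by ring
  linarith

/-- **[L8]** -/
theorem nearAll (h7 : TwoLongN) (hT : MD.H514.ThirdLongD) (hF : DX.H556.FatLog)
    (hU : DX.H556.UniY) (hP : PolyS) : NearAll := by
  intro δ hδ
  obtain ⟨C3, c3, hC3, hP⟩ := hP
  obtain ⟨C1, c1, hC1, hF⟩ := hF
  obtain ⟨C2, c2, hC2, hU⟩ := hU
  obtain ⟨C4, c4, hC4, h7⟩ := h7 δ (2 * C2 + C3) (c2 + c3) hδ (by linarith)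
  obtain ⟨a0, hT⟩ := hT δ hδ
  have hC2' : 0 < C2 := by linarith
  obtain ⟨a1, ha1⟩ := ev ((C4 + 2 * C2) * (C1 * (1 + δ) / δ) * (C3 + 1)) (by positivity)
    (c4 + c2 + c1 + c3) 3
  obtain ⟨A, hA⟩ : ∃ A : ℕ, A = a0 + a1 + ⌈C4⌉₊ + 1 := ⟨_, rfl⟩
  have hlA : 0 ≤ Real.log A := Real.log_natCast_nonneg A
  obtain ⟨B, hB⟩ : ∃ B : ℝ, B = C3 * A * (1 + Real.log A) ^ c3 := ⟨_, rfl⟩
  have hB0 : 0 ≤ B := by
    rw [hB]
    positivity
  refine ⟨C4 + C3 + B, c4 + c3, by positivity, fun a b hab n lam hD => ?_⟩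
  by_cases hz : plethMult a b n lam = 0
  · rw [hz]
    exact Nat.zero_le _
  obtain ⟨hanti, hsum, _⟩ := H530.zero_stmt a b n lam hz
  by_contra hcon
  obtain ⟨L, hL⟩ : ∃ L : ℝ, L = 1 + Real.log a := ⟨_, rfl⟩
  have hL1 : 1 ≤ L := by
    have := Real.log_natCast_nonneg a
    linarith
  obtain ⟨D, hDd⟩ : ∃ D : ℝ, D = (dn lam 2 : ℝ) := ⟨_, rfl⟩
  rw [← hL, ← hDd, pow_add] at hD
  obtain ⟨X1, hX1⟩ : ∃ X : ℝ, X = L ^ c1 := ⟨_, rfl⟩
  obtain ⟨X2, hX2⟩ : ∃ X : ℝ, X = L ^ c2 := ⟨_, rfl⟩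
  obtain ⟨X3, hX3⟩ : ∃ X : ℝ, X = L ^ c3 := ⟨_, rfl⟩
  obtain ⟨X4, hX4⟩ : ∃ X : ℝ, X = L ^ c4 := ⟨_, rfl⟩
  have h1X1 : 1 ≤ X1 := hX1 ▸ one_le_pow₀ hL1
  have h1X2 : 1 ≤ X2 := hX2 ▸ one_le_pow₀ hL1
  have h1X3 : 1 ≤ X3 := hX3 ▸ one_le_pow₀ hL1
  have h1X4 : 1 ≤ X4 := hX4 ▸ one_le_pow₀ hL1
  rw [← hX3, ← hX4] at hD
  -- `b` is small
  have hb : (b : ℝ) < C3 * a * X3 := by
    by_contra h
    rw [hX3, hL] at h
    exact hcon (hP a b (not_lt.1 h) n lam)
  have ha : 0 < a := by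
    rcases Nat.eq_zero_or_pos a with h | h
    · rw [h, Nat.cast_zero, mul_zero, zero_mul] at hb
      exact absurd hb (not_lt.2 (Nat.cast_nonneg b))
    · exact h
  have haR : (1 : ℝ) ≤ a := by exact_mod_cast ha
  have ha0 : (0 : ℝ) < a := by linarith
  have habR : (a : ℝ) ≤ b := by
    have h1 : 0 ≤ δ * (a : ℝ) := by positivity
    linarith
  have hab' : a ≤ b := by exact_mod_cast habR
  have hb0 : (0 : ℝ) < b := by linarith
  -- the consequences of the hypothesis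
  have hE : ∀ E Y : ℝ, 0 ≤ Y → E ≤ C4 + C3 + B → Y ≤ X4 * X3 → E * Y * a ≤ D := by
    intro E Y hY hE hYX
    refine le_trans ?_ hD
    apply mul_le_mul_of_nonneg_right _ ha0.le
    exact mul_le_mul hE hYX hY (by positivity)
  have hX4' : (0 : ℝ) ≤ X4 := zero_le_one.trans h1X4
  have hX3' : (0 : ℝ) ≤ X3 := zero_le_one.trans h1X3
  have hX2' : (0 : ℝ) ≤ X2 := zero_le_one.trans h1X2
  have hD4 : C4 * X4 * a ≤ D := hE C4 X4 hX4' (by linarith) (le_mul_of_one_le_right hX4' h1X3)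
  have hD3 : C3 * X3 * a ≤ D := hE C3 X3 hX3' (by linarith) (le_mul_of_one_le_left hX3' h1X4)
  have hDB : B * 1 * a ≤ D := hE B 1 zero_le_one (by linarith)
    (one_le_mul_of_one_le_of_one_le h1X4 h1X3)
  have hD0 : 0 < D := lt_of_lt_of_le (by positivity) hD4
  -- `a` is large
  have hDab : D ≤ a * b := by
    have h1 := dn_le_sum lam 2
    rw [hsum] at h1
    rw [hDd]
    exact_mod_cast h1
  have hAa : A ≤ a := by
    by_contra hlt
    have hlt' : a ≤ A := by omega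
    have h1 : (a : ℝ) ≤ A := by exact_mod_cast hlt'
    have h2 : Real.log a ≤ Real.log A := Real.log_le_log ha0 h1
    have h3 : C3 * a * X3 ≤ B := by
      rw [hB, hX3, hL]
      have h4 : (1 + Real.log a) ^ c3 ≤ (1 + Real.log A) ^ c3 := by
        apply pow_le_pow_left₀ _ (by linarith)
        rw [← hL]
        linarith
      apply mul_le_mul _ h4 (by rw [← hL]; positivity) (by positivity)
      exact mul_le_mul_of_nonneg_left h1 hC3.le
    have h5 : B * a ≤ b * a := by linarith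
    have h6 : B ≤ b := le_of_mul_le_mul_right h5 ha0
    linarith
  -- few cells in the first `b` columns
  obtain ⟨S, hS⟩ : ∃ S : ℝ, S = ∑ i, ((min b (lam i) : ℕ) : ℝ) := ⟨_, rfl⟩
  have hS0 : 0 ≤ S := by
    rw [hS]
    exact Finset.sum_nonneg fun i _ => Nat.cast_nonneg _
  have hfat : ((b : ℝ) - a) * S < C1 * X1 * (b : ℝ) ^ 2 := by
    by_contra h
    rw [hX1, hL, hS] at h
    exact hcon (hF a b n lam hab' (not_lt.1 h))
  have hSV : S < C1 * (1 + δ) / δ * X1 * b := by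
    have h1 : δ * b * S ≤ (1 + δ) * (((b : ℝ) - a) * S) := by
      have h2 : δ * b ≤ (1 + δ) * ((b : ℝ) - a) := by linarith
      calc δ * b * S ≤ (1 + δ) * ((b : ℝ) - a) * S := mul_le_mul_of_nonneg_right h2 hS0
        _ = (1 + δ) * (((b : ℝ) - a) * S) := by ring
    have h3 : δ * b * S < δ * b * (C1 * (1 + δ) / δ * X1 * b) := by
      calc δ * b * S ≤ (1 + δ) * (((b : ℝ) - a) * S) := h1
        _ < (1 + δ) * (C1 * X1 * (b : ℝ) ^ 2) := mul_lt_mul_of_pos_left hfat (by linarith)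
        _ = δ * b * (C1 * (1 + δ) / δ * X1 * b) := by
            field_simp
    exact lt_of_mul_lt_mul_left h3 (by positivity)
  -- `w` is large
  have hw : (b : ℝ) ^ 2 < C2 * X2 * (dn lam 1 : ℝ) := by
    by_contra h
    have h1 := not_lt.1 h
    have h2 : (b : ℝ) ^ 2 ≤ D ^ 2 := by
      apply pow_le_pow_left₀ hb0.le
      linarith
    have h3 : C2 * X2 * (dn lam 1 : ℝ) ≤ (dn lam 2 : ℝ) ^ 2 := by
      rw [← hDd]
      linarith
    rw [hX2, hL] at h1 h3
    exact hcon (hU a b hab' n lam (Or.inr (Or.inr (Or.inr ⟨h1, h3⟩))))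
  have hwD : (dn lam 1 : ℝ) = (ex lam 1 : ℝ) + D := by
    rw [hDd]
    exact_mod_cast dn_succ lam 1
  rcases le_or_gt ((C4 + 2 * C2) * (X4 * X2) * D) ((a : ℝ) ^ 2) with h4 | h4
  · -- two long rows
    apply hcon
    have hn : 3 ≤ n := by
      by_contra hn
      have h1 := dn_small lam (by omega)
      rw [h1, Nat.cast_zero] at hDd
      linarith
    obtain ⟨k, rfl⟩ := Nat.exists_eq_add_of_le' hn
    have e1 : (ex lam 1 : ℝ) = (lam 1 : ℝ) := by
      rw [exlt lam (by omega : 1 < k + 3)]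
      rfl
    have e2 : (dn2 lam : ℝ) = D := by
      rw [hDd, dn2_eq]
    have h42 : 2 * C2 * X2 * D ≤ (a : ℝ) ^ 2 := by
      refine le_trans ?_ h4
      apply mul_le_mul_of_nonneg_right _ hD0.le
      have : X2 ≤ X4 * X2 := le_mul_of_one_le_left hX2' h1X4
      have h5 : 2 * C2 * X2 ≤ 2 * C2 * (X4 * X2) := mul_le_mul_of_nonneg_left this (by linarith)
      have h6 : 0 ≤ C4 * (X4 * X2) := by positivity
      linarith
    have h44 : C4 * X4 * D ≤ (a : ℝ) ^ 2 := by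
      refine le_trans ?_ h4
      apply mul_le_mul_of_nonneg_right _ hD0.le
      have : X4 ≤ X4 * X2 := le_mul_of_one_le_right hX4' h1X2
      have h5 : C4 * X4 ≤ C4 * (X4 * X2) := mul_le_mul_of_nonneg_left this hC4.le
      have h6 : 0 ≤ 2 * C2 * (X4 * X2) := by positivity
      linarith
    refine h7 a b k lam hanti hsum ?_ hab ?_ ?_ ?_ ?_
    · have h1 : C4 ≤ (⌈C4⌉₊ : ℝ) := Nat.le_ceil C4
      have h2 : ⌈C4⌉₊ ≤ a := by omega
      have h3 : ((⌈C4⌉₊ : ℕ) : ℝ) ≤ a := by exact_mod_cast h2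
      linarith
    · rw [← hL, pow_add, ← hX2, ← hX3]
      have h1 : C3 * X3 ≤ (2 * C2 + C3) * (X2 * X3) := by
        have h2 : X3 ≤ X2 * X3 := le_mul_of_one_le_left hX3' h1X2
        have h3 : C3 * X3 ≤ C3 * (X2 * X3) := mul_le_mul_of_nonneg_left h2 hC3.le
        have h4 : 0 ≤ 2 * C2 * (X2 * X3) := by positivity
        linarith
      have h2 : C3 * X3 * a ≤ (2 * C2 + C3) * (X2 * X3) * a := mul_le_mul_of_nonneg_right h1 ha0.le
      linarith
    · rw [← hL, pow_add, ← hX2, ← hX3, ← e1]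
      have h1 : 2 * C2 * X2 ≤ (2 * C2 + C3) * (X2 * X3) := by
        have h2 : X2 ≤ X2 * X3 := le_mul_of_one_le_right hX2' h1X3
        have h3 : 2 * C2 * X2 ≤ 2 * C2 * (X2 * X3) := mul_le_mul_of_nonneg_left h2 (by linarith)
        have h4 : 0 ≤ C3 * (X2 * X3) := by positivity
        linarith
      have h2 : 2 * C2 * X2 * (ex lam 1 : ℝ) ≤ (2 * C2 + C3) * (X2 * X3) * (ex lam 1 : ℝ) :=
        mul_le_mul_of_nonneg_right h1 (Nat.cast_nonneg _)
      have h3 : (a : ℝ) ^ 2 ≤ (b : ℝ) ^ 2 := pow_le_pow_left₀ ha0.le habR 2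
      exact two_num (c := C2 * X2) hw hwD (by rw [← mul_assoc]; exact h42)
        (by rw [← mul_assoc]; exact h2) h3
    · rw [← hL, ← hX4, e2]
      exact hD4
    · rw [← hL, ← hX4, e2]
      exact h44
  · -- the third row is long
    apply hcon
    refine hT a b n lam (by omega) hab ?_
    by_contra hx
    have hx' := not_le.1 hx
    have hm := dn_mul_le hanti b
    have hm' : D * b ≤ S * ((b : ℝ) + (ex lam 2 : ℝ)) := by
      rw [hDd, hS]
      exact_mod_cast hm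
    have hKa := ha1 a (by omega)
    rw [← hL, pow_add, pow_add, pow_add, ← hX1, ← hX2, ← hX3, ← hX4] at hKa
    have hKK : (C4 + 2 * C2) * (X4 * X2) * (C1 * (1 + δ) / δ * X1) * (C3 * X3 + 1) ≤
        (C4 + 2 * C2) * (C1 * (1 + δ) / δ) * (C3 + 1) * (X4 * X2 * X1 * X3) := by
      have h1 : C3 * X3 + 1 ≤ (C3 + 1) * X3 := by linarith
      calc (C4 + 2 * C2) * (X4 * X2) * (C1 * (1 + δ) / δ * X1) * (C3 * X3 + 1)
          ≤ (C4 + 2 * C2) * (X4 * X2) * (C1 * (1 + δ) / δ * X1) * ((C3 + 1) * X3) :=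
            mul_le_mul_of_nonneg_left h1 (by positivity)
        _ = (C4 + 2 * C2) * (C1 * (1 + δ) / δ) * (C3 + 1) * (X4 * X2 * X1 * X3) := by ring
    exact third_num haR hb0 (Nat.cast_nonneg _) hx' hC3 (by linarith) hb hSV (by positivity)
      (by positivity) hm' h4 hKK hKa

end Vale.Agent.P181.H382.H510
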